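import Vale.Agent.Lib.P157.Bound

open MeasureTheory ProbabilityTheory

namespace Vale.Agent.Lib.P157

/-- Hoeffding bound for the log-moment generating function of a bounded function of a
standard Gaussian. -/
lemma log_mgf_le (f : ℝ → ℝ) (hf : Measurable f) (C : ℝ) (hC : ∀ t, |f t| ≤ C) (lam : ℝ) :
    Real.log (∫ t, Real.exp (lam * f t) ∂(gaussianReal 0 1))
      ≤ lam * (∫ t, f t ∂(gaussianReal 0 1)) + C ^ 2 * lam ^ 2 / 2 := by
  have hC0 : 0 ≤ C := le_trans (abs_nonneg _) (hC 0)
  set m : ℝ := ∫ t, f t ∂(gaussianReal 0 1) with hm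
  have hsub := hasSubgaussianMGF_of_mem_Icc (μ := gaussianReal 0 1) (X := f) (a := -C) (b := C)
    hf.aemeasurable (Filter.Eventually.of_forall fun t =>
      ⟨neg_le_of_abs_le (hC t), le_of_abs_le (hC t)⟩)
  have hle := hsub.mgf_le lam
  have hint := hsub.integrable_exp_mul lam
  have hc : (((‖C - -C‖₊ / 2) ^ 2 : NNReal) : ℝ) = C ^ 2 := by
    push_cast
    rw [Real.norm_eq_abs, abs_of_nonneg (by linarith)]
    ring
  rw [hc] at hle
  have hsplit : ∀ t, Real.exp (lam * f t) = Real.exp (lam * m) * Real.exp (lam * (f t - m)) := by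
    intro t
    rw [← Real.exp_add]
    congr 1
    ring
  have hmgf : mgf (fun t => f t - m) (gaussianReal 0 1) lam
      = ∫ t, Real.exp (lam * (f t - m)) ∂(gaussianReal 0 1) := rfl
  have hpos : 0 < ∫ t, Real.exp (lam * (f t - m)) ∂(gaussianReal 0 1) := integral_exp_pos hint
  simp_rw [hsplit]
  rw [integral_const_mul, Real.log_mul (Real.exp_pos _).ne' hpos.ne', Real.log_exp]
  have : Real.log (∫ t, Real.exp (lam * (f t - m)) ∂(gaussianReal 0 1)) ≤ C ^ 2 * lam ^ 2 / 2 := by
    rw [← Real.log_exp (C ^ 2 * lam ^ 2 / 2)]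
    exact Real.log_le_log hpos (by rw [← hmgf]; exact hle)
  linarith

/-- The Jensen lower bound for the Ising pressure. -/
theorem jensen_lower_bound {Ω : Type*} {mΩ : MeasurableSpace Ω}
    (μ : Measure Ω) [IsProbabilityMeasure μ]
    (N M : ℕ) (hN : 0 < N)
    (g : Fin M → Ω → (Fin N → ℝ)) (hg : ∀ a, Measurable (g a))
    (hlaw : ∀ a, μ.map (g a) = Measure.pi (fun _ : Fin N => gaussianReal 0 1))
    (f : ℝ → ℝ) (hf : Measurable f) (C : ℝ) (hC : ∀ t, |f t| ≤ C) :
    (M : ℝ) / N * (∫ t, f t ∂(gaussianReal 0 1))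
      ≤ ∫ ω, (1 / (N : ℝ)) * Real.log ((∑ x : Fin N → Bool,
        Real.exp (∑ a, f ((∑ i, g a ω i * (if x i then 1 else -1)) / Real.sqrt N))) / 2 ^ N) ∂μ := by
  classical
  have hNpos : (0 : ℝ) < N := by exact_mod_cast hN
  set L : (Fin N → Bool) → (Fin N → ℝ) → ℝ :=
    fun x v => (∑ i, v i * (if x i then 1 else -1)) / Real.sqrt N with hL
  set S : (Fin N → Bool) → Ω → ℝ := fun x ω => ∑ a, f (L x (g a ω)) with hS
  set m : ℝ := ∫ t, f t ∂(gaussianReal 0 1) with hm
  have hLmeas : ∀ x, Measurable (L x) := by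
    intro x
    simp only [hL]
    fun_prop
  have hSmeas : ∀ x, Measurable (S x) := by
    intro x
    simp only [hS]
    exact Finset.measurable_sum _ fun a _ => hf.comp ((hLmeas x).comp (hg a))
  have hSbound : ∀ x ω, |S x ω| ≤ M * C := by
    intro x ω
    calc |S x ω| ≤ ∑ a : Fin M, |f (L x (g a ω))| := Finset.abs_sum_le_sum_abs _ _
      _ ≤ ∑ _a : Fin M, C := Finset.sum_le_sum fun a _ => hC _
      _ = M * C := by simp
  have hproj : ∀ x : Fin N → Bool,
      (Measure.pi (fun _ : Fin N => gaussianReal 0 1)).map (L x) = gaussianReal 0 1 := by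
    intro x
    exact map_proj_gaussian N hN (fun i => if x i then 1 else -1)
      (fun i => by by_cases h : x i <;> simp [h])
  have hfint : ∀ x a, Integrable (fun ω => f (L x (g a ω))) μ := fun x a =>
    integrable_of_bounded (hf.comp ((hLmeas x).comp (hg a))) C (fun ω => hC _)
  have hES : ∀ x, ∫ ω, S x ω ∂μ = M * m := by
    intro x
    simp only [hS]
    rw [integral_finsetSum _ (fun a _ => hfint x a)]
    have h2 : ∀ a : Fin M, ∫ ω, f (L x (g a ω)) ∂μ = m := by
      intro a
      have e1 : ∫ ω, f (L x (g a ω)) ∂μ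
          = ∫ v, f (L x v) ∂(μ.map (g a)) := by
        rw [integral_map (hg a).aemeasurable]
        exact (hf.comp (hLmeas x)).aestronglyMeasurable
      have e2 : ∫ v, f (L x v) ∂(Measure.pi (fun _ : Fin N => gaussianReal 0 1))
          = ∫ t, f t ∂((Measure.pi (fun _ : Fin N => gaussianReal 0 1)).map (L x)) := by
        rw [integral_map (hLmeas x).aemeasurable]
        exact hf.aestronglyMeasurable
      rw [e1, hlaw a, e2, hproj x]
    simp [h2]
  set T : Ω → ℝ := fun ω => ∑ x : Fin N → Bool, Real.exp (S x ω) with hT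
  have hTpos : ∀ ω, 0 < T ω := fun ω =>
    Finset.sum_pos (fun x _ => Real.exp_pos _) Finset.univ_nonempty
  have h2N : (0 : ℝ) < 2 ^ N := by positivity
  have hcard : (Finset.univ : Finset (Fin N → Bool)).card = 2 ^ N := by simp
  have hpt : ∀ ω, (1 / (N : ℝ)) * ((∑ x : Fin N → Bool, S x ω) / 2 ^ N)
      ≤ (1 / (N : ℝ)) * Real.log (T ω / 2 ^ N) := by
    intro ω
    have hN0 : 0 ≤ 1 / (N : ℝ) := by positivity
    apply mul_le_mul_of_nonneg_left _ hN0
    have hj := (convexOn_exp).map_sum_le (t := (Finset.univ : Finset (Fin N → Bool)))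
      (w := fun _ => ((2 : ℝ) ^ N)⁻¹) (p := fun x => S x ω)
      (fun _ _ => by positivity) (by simp) (fun _ _ => Set.mem_univ _)
    simp only [smul_eq_mul, ← Finset.mul_sum] at hj
    rw [← Real.log_exp ((∑ x : Fin N → Bool, S x ω) / 2 ^ N)]
    apply Real.log_le_log (Real.exp_pos _)
    rw [div_eq_inv_mul, div_eq_inv_mul]
    exact hj
  have hTmeas : Measurable T :=
    Finset.measurable_sum _ fun x _ => Real.measurable_exp.comp (hSmeas x)
  have hlogT_int : Integrable (fun ω => Real.log (T ω)) μ :=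
    integrable_of_bounded (Real.measurable_log.comp hTmeas)
      (|Real.log (Fintype.card (Fin N → Bool))| + M * C)
      (fun ω => abs_log_sum_exp_le _ _ (fun x => hSbound x ω))
  have hRint : Integrable (fun ω => (1 / (N : ℝ)) * Real.log (T ω / 2 ^ N)) μ := by
    have : (fun ω => (1 / (N : ℝ)) * Real.log (T ω / 2 ^ N))
        = fun ω => (1 / (N : ℝ)) * (Real.log (T ω) - N * Real.log 2) := by
      ext ω
      rw [Real.log_div (hTpos ω).ne' h2N.ne', Real.log_pow]
    rw [this]
    exact (hlogT_int.sub (integrable_const _)).const_mul _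
  have hSint : ∀ x, Integrable (S x) μ := fun x =>
    integrable_of_bounded (hSmeas x) (M * C) (hSbound x)
  have hLint : Integrable (fun ω => (1 / (N : ℝ)) * ((∑ x : Fin N → Bool, S x ω) / 2 ^ N)) μ :=
    ((integrable_finsetSum _ fun x _ => hSint x).div_const _).const_mul _
  calc (M : ℝ) / N * m = ∫ ω, (1 / (N : ℝ)) * ((∑ x : Fin N → Bool, S x ω) / 2 ^ N) ∂μ := by
        rw [integral_const_mul, integral_div, integral_finsetSum _ (fun x _ => hSint x)]
        simp only [hES, Finset.sum_const, hcard, nsmul_eq_mul]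
        push_cast
        field_simp
    _ ≤ ∫ ω, (1 / (N : ℝ)) * Real.log (T ω / 2 ^ N) ∂μ := integral_mono hLint hRint hpt

/-- Two-sided bounds: the expected Ising pressure is `α E f(G) + O(C √α)`. -/
theorem large_alpha_bounds {Ω : Type*} {mΩ : MeasurableSpace Ω}
    (μ : Measure Ω) [IsProbabilityMeasure μ]
    (N M : ℕ) (hN : 0 < N)
    (g : Fin M → Ω → (Fin N → ℝ)) (hg : ∀ a, Measurable (g a))
    (hind : iIndepFun g μ)
    (hlaw : ∀ a, μ.map (g a) = Measure.pi (fun _ : Fin N => gaussianReal 0 1))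
    (f : ℝ → ℝ) (hf : Measurable f) (C : ℝ) (hC : ∀ t, |f t| ≤ C) :
    (M : ℝ) / N * (∫ t, f t ∂(gaussianReal 0 1))
      ≤ ∫ ω, (1 / (N : ℝ)) * Real.log ((∑ x : Fin N → Bool,
        Real.exp (∑ a, f ((∑ i, g a ω i * (if x i then 1 else -1)) / Real.sqrt N))) / 2 ^ N) ∂μ
    ∧ ∫ ω, (1 / (N : ℝ)) * Real.log ((∑ x : Fin N → Bool,
        Real.exp (∑ a, f ((∑ i, g a ω i * (if x i then 1 else -1)) / Real.sqrt N))) / 2 ^ N) ∂μ
      ≤ (M : ℝ) / N * (∫ t, f t ∂(gaussianReal 0 1))
        + C * Real.sqrt (2 * Real.log 2 * ((M : ℝ) / N)) := by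
  refine ⟨jensen_lower_bound μ N M hN g hg hlaw f hf C hC, ?_⟩
  have hNpos : (0 : ℝ) < N := by exact_mod_cast hN
  have hC0 : 0 ≤ C := le_trans (abs_nonneg _) (hC 0)
  set m : ℝ := ∫ t, f t ∂(gaussianReal 0 1) with hm
  set al : ℝ := (M : ℝ) / N with hal
  have hal0 : 0 ≤ al := by positivity
  have hlog2 : 0 < Real.log 2 := Real.log_pos (by norm_num)
  have key : ∀ lam : ℝ, 0 < lam → lam ≤ 1 →
      ∫ ω, (1 / (N : ℝ)) * Real.log ((∑ x : Fin N → Bool,
        Real.exp (∑ a, f ((∑ i, g a ω i * (if x i then 1 else -1)) / Real.sqrt N))) / 2 ^ N) ∂μ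
      ≤ al * m + (1 / lam - 1) * Real.log 2 + al * C ^ 2 * lam / 2 := by
    intro lam h0 h1
    have h := fractional_moment_bound μ N M hN g hg hind hlaw f hf C hC lam h0 h1
    have hl := log_mgf_le f hf C hC lam
    have hcoef : 0 ≤ (M : ℝ) / (N * lam) := by positivity
    have h3 := mul_le_mul_of_nonneg_left hl hcoef
    have h4 : (M : ℝ) / (N * lam) * (lam * m + C ^ 2 * lam ^ 2 / 2)
        = al * m + al * C ^ 2 * lam / 2 := by
      simp only [hal]
      field_simp
    linarith
  by_cases hcase : al * C ^ 2 ≤ 2 * Real.log 2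
  · -- use lam = 1
    have h := key 1 one_pos le_rfl
    have hsq : al * C ≤ Real.sqrt (2 * Real.log 2 * al) := by
      apply Real.le_sqrt_of_sq_le
      have : (al * C) ^ 2 = (al * C ^ 2) * al := by ring
      rw [this]
      exact mul_le_mul_of_nonneg_right hcase hal0
    have h5 : al * C ^ 2 ≤ C * Real.sqrt (2 * Real.log 2 * al) := by
      have := mul_le_mul_of_nonneg_left hsq hC0
      nlinarith
    have h6 : 0 ≤ al * C ^ 2 := by positivity
    have h0 : (1 / (1 : ℝ) - 1) * Real.log 2 = 0 := by norm_num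
    have h1 : al * C ^ 2 * 1 / 2 = al * C ^ 2 / 2 := by ring
    rw [h0, h1] at h
    linarith
  · -- optimal lam
    rw [not_le] at hcase
    set K : ℝ := al * C ^ 2 with hK
    have hKpos : 0 < K := lt_trans (by positivity) hcase
    set lam : ℝ := Real.sqrt (2 * Real.log 2 / K) with hlam
    have hlam2 : lam ^ 2 = 2 * Real.log 2 / K := Real.sq_sqrt (by positivity)
    have hlampos : 0 < lam := Real.sqrt_pos.2 (by positivity)
    have hlam1 : lam ≤ 1 := by
      rw [hlam]
      apply Real.sqrt_le_one.2  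
      rw [div_le_one hKpos]
      exact hcase.le
    have h := key lam hlampos hlam1
    have hrel : lam ^ 2 * K = 2 * Real.log 2 := by
      rw [hlam2]
      field_simp
    have h7 : 1 / lam * Real.log 2 = lam * K / 2 := by
      field_simp
      nlinarith
    have h8 : C * Real.sqrt (2 * Real.log 2 * al) = K * lam := by
      have hnn : 0 ≤ K * lam := by positivity
      have hnn2 : 0 ≤ C * Real.sqrt (2 * Real.log 2 * al) :=
        mul_nonneg hC0 (Real.sqrt_nonneg _)
      have hsq : (C * Real.sqrt (2 * Real.log 2 * al)) ^ 2 = (K * lam) ^ 2 := by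
        rw [mul_pow, Real.sq_sqrt (by positivity), mul_pow, hlam2, hK]
        field_simp
      exact (pow_left_inj₀ hnn2 hnn (by norm_num)).1 hsq
    rw [h8]
    have h9 : al * C ^ 2 * lam / 2 = lam * K / 2 := by rw [hK]; ring
    nlinarith

end Vale.Agent.Lib.P157
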