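import Mathlib

open MeasureTheory ProbabilityTheory

namespace Vale.Agent.Lib.P157

/-- Subadditivity of `t ↦ t ^ p` for `0 ≤ p ≤ 1` over finite sums. -/
lemma rpow_sum_le_sum_rpow {ι : Type*} (s : Finset ι) (a : ι → ℝ) (ha : ∀ i, 0 ≤ a i)
    {p : ℝ} (hp : 0 < p) (hp1 : p ≤ 1) :
    (∑ i ∈ s, a i) ^ p ≤ ∑ i ∈ s, (a i) ^ p := by
  classical
  induction s using Finset.induction_on with
  | empty =>
    simp only [Finset.sum_empty]
    rw [Real.zero_rpow hp.ne']
  | insert i s hi ih =>
    rw [Finset.sum_insert hi, Finset.sum_insert hi]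
    calc (a i + ∑ j ∈ s, a j) ^ p ≤ (a i) ^ p + (∑ j ∈ s, a j) ^ p :=
          Real.rpow_add_le_add_rpow (ha i) (Finset.sum_nonneg fun j _ => ha j) hp.le hp1
      _ ≤ (a i) ^ p + ∑ j ∈ s, (a j) ^ p := by gcongr

/-- A finite sum of independent centred real Gaussian variables is Gaussian. -/
lemma map_sum_gaussian {Ω : Type*} {mΩ : MeasurableSpace Ω} {P : Measure Ω}
    [IsProbabilityMeasure P] {ι : Type*} (X : ι → Ω → ℝ) (v : ι → NNReal)
    (hind : iIndepFun X P) (hmeas : ∀ i, Measurable (X i))
    (hlaw : ∀ i, P.map (X i) = gaussianReal 0 (v i)) (s : Finset ι) :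
    P.map (∑ i ∈ s, X i) = gaussianReal 0 (∑ i ∈ s, v i) := by
  classical
  induction s using Finset.induction_on with
  | empty =>
    simp only [Finset.sum_empty]
    rw [gaussianReal_zero_var]
    have : (0 : Ω → ℝ) = fun _ => (0 : ℝ) := rfl
    rw [this, Measure.map_const]
    simp
  | insert i s hi ih =>
    rw [Finset.sum_insert hi, Finset.sum_insert hi]
    have hindep : IndepFun (X i) (∑ j ∈ s, X j) P :=
      (hind.indepFun_finsetSum_of_notMem hmeas hi).symm
    have := gaussianReal_add_gaussianReal_of_indepFun hindep (hlaw i) ih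
    simpa using this

/-- The normalised projection of a standard Gaussian vector on a sign vector is standard
Gaussian. -/
lemma map_proj_gaussian (N : ℕ) (hN : 0 < N) (s : Fin N → ℝ) (hs : ∀ i, s i ^ 2 = 1) :
    (Measure.pi (fun _ : Fin N => gaussianReal 0 1)).map
      (fun v : Fin N → ℝ => (∑ i, v i * s i) / Real.sqrt N) = gaussianReal 0 1 := by
  set c : Fin N → ℝ := fun i => s i / Real.sqrt N with hc
  set X : Fin N → (Fin N → ℝ) → ℝ := fun i v => v i * c i with hX
  have hind : iIndepFun X (Measure.pi (fun _ : Fin N => gaussianReal 0 1)) :=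
    iIndepFun_pi (X := fun i (u : ℝ) => u * c i) (fun i => by fun_prop)
  have hmeas : ∀ i, Measurable (X i) := fun i => by fun_prop
  have hlaw : ∀ i, (Measure.pi (fun _ : Fin N => gaussianReal 0 1)).map (X i)
      = gaussianReal 0 (NNReal.mk (c i ^ 2) (sq_nonneg _)) := by
    intro i
    have h1 : (Measure.pi (fun _ : Fin N => gaussianReal 0 1)).map (Function.eval i)
        = gaussianReal 0 1 := (measurePreserving_eval (fun _ : Fin N => gaussianReal 0 1) i).map_eq
    have h2 : X i = (fun u : ℝ => u * c i) ∘ (Function.eval i) := rfl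
    rw [h2, ← Measure.map_map (by fun_prop) (by fun_prop), h1, gaussianReal_map_mul_const]
    simp
  have hsum := map_sum_gaussian X _ hind hmeas hlaw Finset.univ
  have hfun : (fun v : Fin N → ℝ => (∑ i, v i * s i) / Real.sqrt N) = ∑ i, X i := by
    ext v
    simp [hX, hc, Finset.sum_div, mul_div_assoc]
  rw [hfun, hsum]
  congr 1
  have hNpos : (0 : ℝ) < N := by exact_mod_cast hN
  have hci : ∀ i, c i ^ 2 = 1 / (N : ℝ) := by
    intro i
    simp only [hc, div_pow, hs i, Real.sq_sqrt hNpos.le]
  apply NNReal.eq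
  rw [NNReal.coe_sum]
  simp only [NNReal.coe_mk, hci, Finset.sum_const, Finset.card_univ, Fintype.card_fin,
    nsmul_eq_mul, NNReal.coe_one]
  field_simp

lemma sum_exp_bounds {ι : Type*} [Fintype ι] (s : ι → ℝ) (B : ℝ) (hs : ∀ x, |s x| ≤ B) :
    (Fintype.card ι : ℝ) * Real.exp (-B) ≤ ∑ x, Real.exp (s x) ∧
      ∑ x, Real.exp (s x) ≤ (Fintype.card ι : ℝ) * Real.exp B := by
  constructor
  · have : ∑ _x : ι, Real.exp (-B) ≤ ∑ x, Real.exp (s x) :=
      Finset.sum_le_sum fun x _ => Real.exp_le_exp.2 (neg_le_of_abs_le (hs x))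
    simpa using this
  · have : ∑ x, Real.exp (s x) ≤ ∑ _x : ι, Real.exp B :=
      Finset.sum_le_sum fun x _ => Real.exp_le_exp.2 (le_of_abs_le (hs x))
    simpa using this

lemma abs_log_sum_exp_le {ι : Type*} [Fintype ι] [Nonempty ι] (s : ι → ℝ) (B : ℝ)
    (hs : ∀ x, |s x| ≤ B) :
    |Real.log (∑ x, Real.exp (s x))| ≤ |Real.log (Fintype.card ι)| + B := by
  have hcard : (0 : ℝ) < Fintype.card ι := by exact_mod_cast Fintype.card_pos
  obtain ⟨h1, h2⟩ := sum_exp_bounds s B hs
  have hpos : 0 < ∑ x, Real.exp (s x) :=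
    lt_of_lt_of_le (mul_pos hcard (Real.exp_pos _)) h1
  have hl1 : Real.log (Fintype.card ι) - B ≤ Real.log (∑ x, Real.exp (s x)) := by
    have := Real.log_le_log (mul_pos hcard (Real.exp_pos _)) h1
    rwa [Real.log_mul hcard.ne' (Real.exp_pos _).ne', Real.log_exp, ← sub_eq_add_neg] at this
  have hl2 : Real.log (∑ x, Real.exp (s x)) ≤ Real.log (Fintype.card ι) + B := by
    have := Real.log_le_log hpos h2
    rwa [Real.log_mul hcard.ne' (Real.exp_pos _).ne', Real.log_exp] at this
  rw [abs_le]
  constructor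
  · have := neg_abs_le (Real.log (Fintype.card ι))
    linarith
  · have := le_abs_self (Real.log (Fintype.card ι))
    linarith

lemma integrable_of_bounded {Ω : Type*} {mΩ : MeasurableSpace Ω} {P : Measure Ω}
    [IsProbabilityMeasure P] {h : Ω → ℝ} (hm : Measurable h) (B : ℝ) (hB : ∀ ω, |h ω| ≤ B) :
    Integrable h P :=
  Integrable.of_bound hm.aestronglyMeasurable B
    (Filter.Eventually.of_forall fun ω => by simpa [Real.norm_eq_abs] using hB ω)

/-- Jensen for the logarithm, in the form needed. -/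
lemma integral_log_le_log_integral {Ω : Type*} {mΩ : MeasurableSpace Ω} {P : Measure Ω}
    [IsProbabilityMeasure P] {h : Ω → ℝ} (hpos : ∀ ω, 0 < h ω) (hint : Integrable h P)
    (hlog : Integrable (fun ω => Real.log (h ω)) P) :
    ∫ ω, Real.log (h ω) ∂P ≤ Real.log (∫ ω, h ω ∂P) := by
  have hA : 0 < ∫ ω, h ω ∂P := by
    have := integral_exp_pos (μ := P) (f := fun ω => Real.log (h ω))
      (by simpa [Real.exp_log (hpos _)] using hint)
    simpa [Real.exp_log (hpos _)] using this
  set A := ∫ ω, h ω ∂P with hAdef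
  have hpt : ∀ ω, Real.log (h ω) ≤ Real.log A + (h ω / A - 1) := by
    intro ω
    have h1 := Real.log_le_sub_one_of_pos (div_pos (hpos ω) hA)
    rw [Real.log_div (hpos ω).ne' hA.ne'] at h1
    linarith
  have hint2 : Integrable (fun ω => Real.log A + (h ω / A - 1)) P :=
    (integrable_const _).add ((hint.div_const A).sub (integrable_const _))
  calc ∫ ω, Real.log (h ω) ∂P ≤ ∫ ω, (Real.log A + (h ω / A - 1)) ∂P :=
        integral_mono hlog hint2 hpt
    _ = Real.log A := by
        have hfun : (fun ω => Real.log A + (h ω / A - 1))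
            = fun ω => (Real.log A - 1) + A⁻¹ * h ω := by
          ext ω; ring
        rw [hfun, integral_add (integrable_const _) (hint.const_mul _), integral_const_mul,
          ← hAdef]
        simp only [integral_const, probReal_univ, smul_eq_mul, one_mul]
        rw [inv_mul_cancel₀ hA.ne']
        ring

end Vale.Agent.Lib.P157
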