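import Vale.Agent.Lib.P157.Basic

open MeasureTheory ProbabilityTheory

namespace Vale.Agent.Lib.P157

theorem fractional_moment_bound {Ω : Type*} {mΩ : MeasurableSpace Ω}
    (μ : Measure Ω) [IsProbabilityMeasure μ]
    (N M : ℕ) (hN : 0 < N)
    (g : Fin M → Ω → (Fin N → ℝ)) (hg : ∀ a, Measurable (g a))
    (hind : iIndepFun g μ)
    (hlaw : ∀ a, μ.map (g a) = Measure.pi (fun _ : Fin N => gaussianReal 0 1))
    (f : ℝ → ℝ) (hf : Measurable f) (C : ℝ) (hC : ∀ t, |f t| ≤ C)
    (lam : ℝ) (h0 : 0 < lam) (h1 : lam ≤ 1) :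
    ∫ ω, (1 / (N : ℝ)) * Real.log ((∑ x : Fin N → Bool,
        Real.exp (∑ a, f ((∑ i, g a ω i * (if x i then 1 else -1)) / Real.sqrt N))) / 2 ^ N) ∂μ
      ≤ (1 / lam - 1) * Real.log 2
        + (M : ℝ) / (N * lam) * Real.log (∫ t, Real.exp (lam * f t) ∂(gaussianReal 0 1)) := by
  classical
  have hNpos : (0 : ℝ) < N := by exact_mod_cast hN
  have hC0 : 0 ≤ C := le_trans (abs_nonneg _) (hC 0)
  set L : (Fin N → Bool) → (Fin N → ℝ) → ℝ :=
    fun x v => (∑ i, v i * (if x i then 1 else -1)) / Real.sqrt N with hL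
  set S : (Fin N → Bool) → Ω → ℝ := fun x ω => ∑ a, f (L x (g a ω)) with hS
  set I : ℝ := ∫ t, Real.exp (lam * f t) ∂(gaussianReal 0 1) with hI
  have hLmeas : ∀ x, Measurable (L x) := by
    intro x
    simp only [hL]
    fun_prop
  have hSmeas : ∀ x, Measurable (S x) := by
    intro x
    simp only [hS]
    exact Finset.measurable_sum _ fun a _ => hf.comp ((hLmeas x).comp (hg a))
  have hSbound : ∀ x ω, |S x ω| ≤ M * C := by
    intro x ω
    calc |S x ω| ≤ ∑ a : Fin M, |f (L x (g a ω))| := Finset.abs_sum_le_sum_abs _ _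
      _ ≤ ∑ _a : Fin M, C := Finset.sum_le_sum fun a _ => hC _
      _ = M * C := by simp
  have hlamSbound : ∀ x ω, |lam * S x ω| ≤ M * C := by
    intro x ω
    rw [abs_mul, abs_of_pos h0]
    calc lam * |S x ω| ≤ 1 * |S x ω| := by gcongr
      _ ≤ M * C := by rw [one_mul]; exact hSbound x ω
  -- the law of the projection
  have hproj : ∀ x : Fin N → Bool,
      (Measure.pi (fun _ : Fin N => gaussianReal 0 1)).map (L x) = gaussianReal 0 1 := by
    intro x
    exact map_proj_gaussian N hN (fun i => if x i then 1 else -1)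
      (fun i => by by_cases h : x i <;> simp [h])
  -- integrability of the exponential moments
  have hexpint : Integrable (fun t => Real.exp (lam * f t)) (gaussianReal 0 1) := by
    apply integrable_of_bounded (B := Real.exp (lam * C))
    · exact Real.measurable_exp.comp (hf.const_mul lam)
    · intro t
      rw [abs_of_pos (Real.exp_pos _)]
      apply Real.exp_le_exp.2
      exact mul_le_mul_of_nonneg_left (le_of_abs_le (hC t)) h0.le
  have hIpos : 0 < I := integral_exp_pos hexpint
  -- first moment of the exp(lam * S x)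
  have hE : ∀ x, ∫ ω, Real.exp (lam * S x ω) ∂μ = I ^ M := by
    intro x
    have h1 : ∀ ω, Real.exp (lam * S x ω) = ∏ a, Real.exp (lam * f (L x (g a ω))) := by
      intro ω
      simp only [hS]
      rw [Finset.mul_sum, Real.exp_sum]
    simp_rw [h1]
    rw [hind.integral_fun_prod_comp (f := fun _ v => Real.exp (lam * f (L x v)))
      (fun a => (hg a).aemeasurable)
      (fun a => (Real.measurable_exp.comp ((hf.comp (hLmeas x)).const_mul lam)).aestronglyMeasurable)]
    have h2 : ∀ a : Fin M, ∫ ω, Real.exp (lam * f (L x (g a ω))) ∂μ = I := by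
      intro a
      have e1 : ∫ ω, Real.exp (lam * f (L x (g a ω))) ∂μ
          = ∫ v, Real.exp (lam * f (L x v)) ∂(μ.map (g a)) := by
        rw [integral_map (hg a).aemeasurable]
        exact (Real.measurable_exp.comp ((hf.comp (hLmeas x)).const_mul lam)).aestronglyMeasurable
      have e2 : ∫ v, Real.exp (lam * f (L x v)) ∂(Measure.pi (fun _ : Fin N => gaussianReal 0 1))
          = ∫ t, Real.exp (lam * f t)
              ∂((Measure.pi (fun _ : Fin N => gaussianReal 0 1)).map (L x)) := by
        rw [integral_map (hLmeas x).aemeasurable]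
        exact (Real.measurable_exp.comp (hf.const_mul lam)).aestronglyMeasurable
      rw [e1, hlaw a, e2, hproj x]
    simp [h2]
  -- the partition sums
  set T : Ω → ℝ := fun ω => ∑ x : Fin N → Bool, Real.exp (S x ω) with hT
  set Tl : Ω → ℝ := fun ω => ∑ x : Fin N → Bool, Real.exp (lam * S x ω) with hTl
  have hTpos : ∀ ω, 0 < T ω := fun ω =>
    Finset.sum_pos (fun x _ => Real.exp_pos _) Finset.univ_nonempty
  have hTlpos : ∀ ω, 0 < Tl ω := fun ω =>
    Finset.sum_pos (fun x _ => Real.exp_pos _) Finset.univ_nonempty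
  have h2N : (0 : ℝ) < 2 ^ N := by positivity
  -- pointwise bound
  have hpt : ∀ ω, (1 / (N : ℝ)) * Real.log (T ω / 2 ^ N)
      ≤ (1 / (N : ℝ)) * ((1 / lam) * Real.log (Tl ω) - N * Real.log 2) := by
    intro ω
    have hpow : (T ω) ^ lam ≤ Tl ω := by
      have := rpow_sum_le_sum_rpow Finset.univ (fun x : Fin N → Bool => Real.exp (S x ω))
        (fun x => (Real.exp_pos _).le) h0 h1
      calc (T ω) ^ lam ≤ ∑ x : Fin N → Bool, (Real.exp (S x ω)) ^ lam := this
        _ = Tl ω := by
          simp only [hTl]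
          refine Finset.sum_congr rfl fun x _ => ?_
          rw [← Real.exp_mul, mul_comm]
    have hlog : lam * Real.log (T ω) ≤ Real.log (Tl ω) := by
      rw [← Real.log_rpow (hTpos ω)]
      exact Real.log_le_log (Real.rpow_pos_of_pos (hTpos ω) _) hpow
    have hlog2 : Real.log (T ω) ≤ (1 / lam) * Real.log (Tl ω) := by
      rw [one_div, ← div_eq_inv_mul, le_div_iff₀ h0]
      linarith
    have hdiv : Real.log (T ω / 2 ^ N) = Real.log (T ω) - N * Real.log 2 := by
      rw [Real.log_div (hTpos ω).ne' h2N.ne', Real.log_pow]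
    rw [hdiv]
    have hN0 : 0 ≤ 1 / (N : ℝ) := by positivity
    exact mul_le_mul_of_nonneg_left (by linarith) hN0
  -- measurability and integrability
  have hTmeas : Measurable T :=
    Finset.measurable_sum _ fun x _ => Real.measurable_exp.comp (hSmeas x)
  have hTlmeas : Measurable Tl :=
    Finset.measurable_sum _ fun x _ => Real.measurable_exp.comp ((hSmeas x).const_mul lam)
  have hlogT_int : Integrable (fun ω => Real.log (T ω)) μ :=
    integrable_of_bounded (Real.measurable_log.comp hTmeas)
      (|Real.log (Fintype.card (Fin N → Bool))| + M * C)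
      (fun ω => abs_log_sum_exp_le _ _ (fun x => hSbound x ω))
  have hlogTl_int : Integrable (fun ω => Real.log (Tl ω)) μ :=
    integrable_of_bounded (Real.measurable_log.comp hTlmeas)
      (|Real.log (Fintype.card (Fin N → Bool))| + M * C)
      (fun ω => abs_log_sum_exp_le _ _ (fun x => hlamSbound x ω))
  have hexpS_int : ∀ x, Integrable (fun ω => Real.exp (lam * S x ω)) μ := by
    intro x
    apply integrable_of_bounded (Real.measurable_exp.comp ((hSmeas x).const_mul lam))
      (Real.exp (M * C))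
    intro ω
    simp only [Function.comp_apply]
    rw [abs_of_pos (Real.exp_pos _)]
    exact Real.exp_le_exp.2 (le_of_abs_le (hlamSbound x ω))
  have hTl_int : Integrable Tl μ := integrable_finsetSum _ fun x _ => hexpS_int x
  -- Jensen
  have hJ : ∫ ω, Real.log (Tl ω) ∂μ ≤ Real.log (∫ ω, Tl ω ∂μ) :=
    integral_log_le_log_integral hTlpos hTl_int hlogTl_int
  have hintTl : ∫ ω, Tl ω ∂μ = 2 ^ N * I ^ M := by
    simp only [hTl]
    rw [integral_finsetSum _ (fun x _ => hexpS_int x)]
    simp [hE]
  have hlogval : Real.log (2 ^ N * I ^ M) = N * Real.log 2 + M * Real.log I := by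
    rw [Real.log_mul h2N.ne' (pow_pos hIpos M).ne', Real.log_pow, Real.log_pow]
  have hJ' : ∫ ω, Real.log (Tl ω) ∂μ ≤ N * Real.log 2 + M * Real.log I := by
    rw [← hlogval, ← hintTl]
    exact hJ
  have hLHSint : Integrable (fun ω => (1 / (N : ℝ)) * Real.log (T ω / 2 ^ N)) μ := by
    have : (fun ω => (1 / (N : ℝ)) * Real.log (T ω / 2 ^ N))
        = fun ω => (1 / (N : ℝ)) * (Real.log (T ω) - N * Real.log 2) := by
      ext ω
      rw [Real.log_div (hTpos ω).ne' h2N.ne', Real.log_pow]
    rw [this]
    exact (hlogT_int.sub (integrable_const _)).const_mul _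
  have hRHSint : Integrable
      (fun ω => (1 / (N : ℝ)) * ((1 / lam) * Real.log (Tl ω) - N * Real.log 2)) μ :=
    ((hlogTl_int.const_mul _).sub (integrable_const _)).const_mul _
  calc ∫ ω, (1 / (N : ℝ)) * Real.log (T ω / 2 ^ N) ∂μ
      ≤ ∫ ω, (1 / (N : ℝ)) * ((1 / lam) * Real.log (Tl ω) - N * Real.log 2) ∂μ :=
        integral_mono hLHSint hRHSint hpt
    _ = (1 / (N : ℝ)) * ((1 / lam) * ∫ ω, Real.log (Tl ω) ∂μ - N * Real.log 2) := by
        rw [integral_const_mul, integral_sub (hlogTl_int.const_mul _) (integrable_const _),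
          integral_const_mul]
        simp
    _ ≤ (1 / (N : ℝ)) * ((1 / lam) * (N * Real.log 2 + M * Real.log I) - N * Real.log 2) := by
        have hN0 : 0 ≤ 1 / (N : ℝ) := by positivity
        have hl0 : 0 ≤ 1 / lam := by positivity
        apply mul_le_mul_of_nonneg_left _ hN0
        have := mul_le_mul_of_nonneg_left hJ' hl0
        linarith
    _ = (1 / lam - 1) * Real.log 2 + (M : ℝ) / (N * lam) * Real.log I := by
        field_simp
        ring

end Vale.Agent.Lib.P157
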